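import Vale.Agent.P017.R4.Defs2
import Vale.Agent.P017.R3.H816.D1b

/-!
# P017: second descent (`Cond2`) for even discriminants
-/

open Finset

namespace Vale.Agent.P017.R4.H985

open Vale.Agent.P017.R2.H985 (bit PF Pat sym Mat cork)
open Vale.Agent.P017.R2.H816
open Vale.Agent.P017.H185
open Vale.Agent.P017.R3

/-- the class of the first coordinate modulo squares, with its local conditions away from 2 -/
theorem desc {d : ℕ} (hd : Squarefree d) (hok : d % 5 = 1 ∨ d % 5 = 4)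
    {X Y : ℚ} (h : Y ^ 2 = X * (X + d) * (X + 81 * d)) (hX : X ≠ 0) :
    ∃ b M e N : ℤ, Squarefree b ∧ IsCoprime M e ∧ X = b * (M / e : ℚ) ^ 2 ∧
      (b * M ^ 2 + d * e ^ 2) * (b * M ^ 2 + 81 * d * e ^ 2) = b * N ^ 2 ∧
      b.natAbs ∣ d * 3 ∧ IsSquare (b : ZMod 5) ∧
      ∀ q δ : ℕ, q.Prime → d = q * δ → (¬ (q : ℤ) ∣ b → IsSquare (b : ZMod q)) ∧
        (∀ β : ℤ, b = q * β → IsSquare ((-(δ * β) : ℤ) : ZMod q)) := by
  have h5d : ¬ 5 ∣ d := by omega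
  obtain ⟨b, M, e, hb, hMe, hM, he, hXb⟩ := exists_sqf hX
  obtain ⟨N, hN⟩ := exists_int_eq (Y := Y) (α := (d : ℤ)) (β := 81 * (d : ℤ)) hb hM he hXb
    (by push_cast; rw [h])
  have hdsq : Squarefree (d : ℤ) := Int.squarefree_natCast.mpr hd
  have hbprime : ∀ p : ℕ, p.Prime → (p : ℤ) ∣ b → p ∣ d ∨ p = 3 := by
    intro p hp hpb
    by_contra hcon
    rw [not_or] at hcon
    apply prime_dvd_gen hp hb hMe hN hpb
    · exact fun h => hcon.1 (by exact_mod_cast h)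
    · intro h2
      rcases (Nat.prime_iff_prime_int.mp hp).dvd_or_dvd h2 with h2 | h2
      · have h4 : p ∣ 3 ^ 4 := by exact_mod_cast h2
        exact hcon.2 ((Nat.prime_dvd_prime_iff_eq hp Nat.prime_three).mp (hp.dvd_of_dvd_pow h4))
      · exact hcon.1 (by exact_mod_cast h2)
  have hBsq : Squarefree b.natAbs := Int.squarefree_natAbs.mpr hb
  have hbD : b.natAbs ∣ d * 3 := by
    rw [← Nat.prod_primeFactors_of_squarefree hBsq]
    refine Finset.prod_primes_dvd _ (fun p hp => (Nat.prime_of_mem_primeFactors hp).prime)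
      (fun p hp => ?_)
    rcases hbprime p (Nat.prime_of_mem_primeFactors hp)
      (Int.natCast_dvd.mpr (Nat.dvd_of_mem_primeFactors hp)) with h | h
    · exact h.mul_right 3
    · rw [h]; exact dvd_mul_left 3 d
  -- modulo 5
  have hb5 : IsSquare (b : ZMod 5) := by
    have h5b : ¬ ((5 : ℕ) : ℤ) ∣ b := by
      intro h
      rcases hbprime 5 Nat.prime_five h with h | h
      · exact h5d h
      · omega
    have hb0 : (b : ZMod 5) ≠ 0 := (ne_iff (p := 5)).mpr h5b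
    have key1 : ∀ M e N : ZMod 5, (2 * M ^ 2 + 1 * e ^ 2) * (2 * M ^ 2 + 81 * 1 * e ^ 2) =
        2 * N ^ 2 → M = 0 ∧ e = 0 := by decide
    have key2 : ∀ M e N : ZMod 5, (3 * M ^ 2 + 1 * e ^ 2) * (3 * M ^ 2 + 81 * 1 * e ^ 2) =
        3 * N ^ 2 → M = 0 ∧ e = 0 := by decide
    have key3 : ∀ M e N : ZMod 5, (2 * M ^ 2 + 4 * e ^ 2) * (2 * M ^ 2 + 81 * 4 * e ^ 2) =
        2 * N ^ 2 → M = 0 ∧ e = 0 := by decide
    have key4 : ∀ M e N : ZMod 5, (3 * M ^ 2 + 4 * e ^ 2) * (3 * M ^ 2 + 81 * 4 * e ^ 2) =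
        3 * N ^ 2 → M = 0 ∧ e = 0 := by decide
    have h1 := congrArg (Int.cast : ℤ → ZMod 5) hN
    push_cast at h1
    have hdz : (d : ZMod 5) = ((d % 5 : ℕ) : ZMod 5) := by simp
    have hcontra : ¬ ((M : ZMod 5) = 0 ∧ (e : ZMod 5) = 0) := by
      rintro ⟨g1, g2⟩
      exact cop_ndvd Nat.prime_five hMe ((zero_iff (p := 5)).mp g2) ((zero_iff (p := 5)).mp g1)
    have h5cases : ∀ z : ZMod 5, z = 0 ∨ z = 1 ∨ z = 2 ∨ z = 3 ∨ z = 4 := by decide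
    rcases h5cases (b : ZMod 5) with h6 | h6 | h6 | h6 | h6
    · exact absurd h6 hb0
    · rw [h6]; exact ⟨1, by decide⟩
    · exfalso
      rw [h6, hdz] at h1
      rcases hok with h7 | h7
      · rw [h7] at h1; exact hcontra (key1 _ _ _ (by simpa using h1))
      · rw [h7] at h1; exact hcontra (key3 _ _ _ (by simpa using h1))
    · exfalso
      rw [h6, hdz] at h1
      rcases hok with h7 | h7
      · rw [h7] at h1; exact hcontra (key2 _ _ _ (by simpa using h1))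
      · rw [h7] at h1; exact hcontra (key4 _ _ _ (by simpa using h1))
    · rw [h6]; exact ⟨2, by decide⟩
  refine ⟨b, M, e, N, hb, hMe, hXb, hN, hbD, hb5, ?_⟩
  intro q δ hq hδ
  have hδ' : (d : ℤ) = q * (δ : ℤ) := by rw [hδ]; push_cast; rfl
  have hqδ : ¬ (q : ℤ) ∣ (δ : ℤ) := not_dvd_of_sqf hq hdsq hδ'
  constructor
  · intro hqb
    exact sq_of_ndvd hq hMe hN hδ' hqδ hqb
  · intro β hβ
    exact sq_of_dvd hq hb hMe hN hδ' hqδ hβ

/-- the conclusion -/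
theorem desc_fin {d : ℕ} {X : ℚ} {b M e : ℤ} (hXb : X = b * (M / e : ℚ) ^ 2)
    (h : b = 1 ∨ b = -(d : ℤ)) : ∃ s : ℚ, X = s ^ 2 ∨ X = -(d : ℚ) * s ^ 2 := by
  refine ⟨M / e, ?_⟩
  rcases h with h1 | h1
  · left; rw [hXb, h1]; push_cast; ring
  · right; rw [hXb, h1]; push_cast; ring

theorem stmtE4_of (hlin : ∀ {n p : ℕ} {b : ℤ}, Squarefree n → Odd n → ¬ 3 ∣ n → ¬ 5 ∣ n →
    p.Prime → 5 < p → ¬ p ∣ n → OK2 (n * p) → (n * p) % 4 = 1 →
    ck (MM2s n (sym n p) (bit 2 p)) = 0 → b.natAbs ∣ n * p * 3 →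
    (b % 8 = 1 ∨ (b + ((n * p : ℕ) : ℤ)) % 8 = 0) → IsSquare (b : ZMod 5) →
    (∀ q δ : ℕ, q.Prime → q ∣ n → n * p = q * δ → (¬ (q : ℤ) ∣ b → IsSquare (b : ZMod q)) ∧
      (∀ β : ℤ, b = q * β → IsSquare ((-(δ * β) : ℤ) : ZMod q))) →
    b = 1 ∨ b = -((n * p : ℕ) : ℤ)) : StmtE4 := by
  intro n hn ho h3 h5 p hp p5 hpn hok h4 hc
  have hcop : Nat.Coprime n p := ((Nat.Prime.coprime_iff_not_dvd hp).mpr hpn).symm
  have hd : Squarefree (n * p) := (Nat.squarefree_mul hcop).mpr ⟨hn, hp.squarefree⟩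
  intro X Y h hX
  obtain ⟨b, M, e, N, hb, hMe, hXb, hN, hbD, hb5, hloc⟩ := desc hd hok.2 h hX
  have hbo : b % 2 = 1 := by
    by_contra hcon
    have h1 : 2 ∣ b.natAbs := by omega
    have h2 : 2 ∣ n * p * 3 := h1.trans hbD
    omega
  have hb8 := (two_adic_odd (d := ((n * p : ℕ) : ℤ)) hMe hbo (by omega) hN).2 (by omega)
  exact desc_fin hXb (hlin hn ho h3 h5 hp p5 hpn hok h4 hc hbD hb8 hb5
    (fun q δ hq _ hδ => hloc q δ hq hδ))

theorem stmtE2_of (hlin : ∀ {κ : ZMod 2} {n p : ℕ} {b : ℤ}, Squarefree n → Odd n → ¬ 3 ∣ n →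
    ¬ 5 ∣ n → p.Prime → 5 < p → ¬ p ∣ n → OK2 (2 * (n * p)) → ((n * p) % 4 = 1 ↔ κ = 1) →
    ck (MM3s κ n (sym n p) (bit 2 p)) = 0 → b.natAbs ∣ n * p * 2 * 3 →
    (b % 8 = 1 ∨ ∃ b' : ℤ, b = 2 * b' ∧ (b' + ((n * p : ℕ) : ℤ)) % 8 = 0) →
    IsSquare (b : ZMod 5) →
    (∀ q δ : ℕ, q.Prime → q ∣ n → 2 * (n * p) = q * δ →
      (¬ (q : ℤ) ∣ b → IsSquare (b : ZMod q)) ∧
      (∀ β : ℤ, b = q * β → IsSquare ((-(δ * β) : ℤ) : ZMod q))) →
    b = 1 ∨ b = -((2 * (n * p) : ℕ) : ℤ)) : StmtE2 := by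
  intro κ n hn ho h3 h5 p hp p5 hpn hok hκ hc
  have hcop : Nat.Coprime n p := ((Nat.Prime.coprime_iff_not_dvd hp).mpr hpn).symm
  have hd : Squarefree (n * p) := (Nat.squarefree_mul hcop).mpr ⟨hn, hp.squarefree⟩
  have hop : Odd p := hp.odd_of_ne_two (by omega)
  have hod : Odd (n * p) := ho.mul hop
  have hd2 : Squarefree (2 * (n * p)) := by
    rw [Nat.squarefree_mul]
    · exact ⟨Nat.prime_two.squarefree, hd⟩
    · rw [Nat.coprime_two_left]; exact hod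
  have hod' : (((n * p : ℕ) : ℤ)) % 2 = 1 := by
    rw [Nat.odd_iff] at hod
    omega
  intro X Y h hX
  obtain ⟨b, M, e, N, hb, hMe, hXb, hN, hbD, hb5, hloc⟩ := desc hd2 hok.2 h hX
  have hde : ((2 * (n * p) : ℕ) : ℤ) = 2 * ((n * p : ℕ) : ℤ) := by push_cast; ring
  have hb8 : b % 8 = 1 ∨ ∃ b' : ℤ, b = 2 * b' ∧ (b' + ((n * p : ℕ) : ℤ)) % 8 = 0 := by
    rcases Int.emod_two_eq_zero_or_one b with h0 | h0
    · right
      obtain ⟨b', hb'⟩ : ∃ b', b = 2 * b' := ⟨b / 2, by omega⟩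
      have hb2 := not_dvd_of_sqf Nat.prime_two hb (β := b') (by push_cast; exact hb')
      have hbo : b' % 2 = 1 := by push_cast at hb2; omega
      exact ⟨b', hb', two_adic_even' hMe hbo hod' hde hb' hN⟩
    · left
      exact two_adic_even hMe h0 hod' hde hN
  refine desc_fin hXb (hlin hn ho h3 h5 hp p5 hpn hok hκ hc ?_ hb8 hb5
    (fun q δ hq _ hδ => hloc q δ hq hδ))
  rw [show n * p * 2 * 3 = 2 * (n * p) * 3 by ring]
  exact hbD

end Vale.Agent.P017.R4.H985
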