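import Vale.Agent.P017.R4.Defs

/-!
# P017: gluing density theorems for classes `n = k m`, `m` squarefree, `m = r mod 4`
-/

open Finset

namespace Vale.Agent.P017.R4.H985

open Vale.Agent.P017.R3

open Classical in
/-- density statement of `Sys.StmtDens`, `StmtDens8` -/
def Dens (r : ℕ) (OK Rd : ℕ → Prop) : Prop :=
  ∀ η δ : ℝ, η < eta → 0 < δ → ∃ X₀ : ℕ, ∀ X : ℕ, X₀ ≤ X →
  η * ((Icc 1 X).filter (fun d => Squarefree d ∧ d % 4 = r ∧ OK d)).card - δ * X ≤
    ((Icc 1 X).filter (fun d => Squarefree d ∧ d % 4 = r ∧ OK d ∧ Rd d)).card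

open Classical in
theorem dens_iff (r : ℕ) (OK Rd : ℕ → Prop) : Dens r OK Rd ↔
    ∀ η δ : ℝ, η < eta → 0 < δ → ∃ X₀ : ℕ, ∀ X : ℕ, X₀ ≤ X →
    η * ((Icc 1 X).filter (fun d => Squarefree d ∧ d % 4 = r ∧ OK d)).card - δ * X ≤
    ((Icc 1 X).filter (fun d => Squarefree d ∧ d % 4 = r ∧ OK d ∧ Rd d)).card := Iff.rfl

theorem dens_old (S : Sys) (h : S.StmtDens) : Dens 3 S.OK S.Rd := h

theorem dens_new (S : Sys) (r : ℕ) (h : StmtDens8 S r) : Dens r S.OK S.Rd := h

/-- two disjoint classes -/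
theorem dens_or {r : ℕ} {OK Rd OK' Rd' : ℕ → Prop} (h : Dens r OK Rd) (h' : Dens r OK' Rd')
    (hd : ∀ m, OK m → OK' m → False) :
    Dens r (fun m => OK m ∨ OK' m) (fun m => (OK m ∧ Rd m) ∨ (OK' m ∧ Rd' m)) := by
  classical
  rw [dens_iff] at h h' ⊢
  intro η δ hη hδ
  obtain ⟨A, hA⟩ := h η (δ / 2) hη (by linarith)
  obtain ⟨B, hB⟩ := h' η (δ / 2) hη (by linarith)
  refine ⟨A + B, fun X hX => ?_⟩
  have hA' := hA X (by omega)
  have hB' := hB X (by omega)
  set F1 := (Icc 1 X).filter (fun d => Squarefree d ∧ d % 4 = r ∧ OK d) with hF1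
  set F2 := (Icc 1 X).filter (fun d => Squarefree d ∧ d % 4 = r ∧ OK' d) with hF2
  set G1 := (Icc 1 X).filter (fun d => Squarefree d ∧ d % 4 = r ∧ OK d ∧ Rd d) with hG1
  set G2 := (Icc 1 X).filter (fun d => Squarefree d ∧ d % 4 = r ∧ OK' d ∧ Rd' d) with hG2
  have e1 : (((Icc 1 X).filter (fun d => Squarefree d ∧ d % 4 = r ∧ (OK d ∨ OK' d))).card : ℝ) =
      F1.card + F2.card := by
    have hdisj : Disjoint F1 F2 := by
      rw [disjoint_left]
      intro d h1 h2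
      rw [hF1, mem_filter] at h1
      rw [hF2, mem_filter] at h2
      exact hd d h1.2.2.2 h2.2.2.2
    have : (Icc 1 X).filter (fun d => Squarefree d ∧ d % 4 = r ∧ (OK d ∨ OK' d)) = F1 ∪ F2 := by
      ext d
      rw [mem_union, hF1, hF2, mem_filter, mem_filter, mem_filter]
      tauto
    rw [this, card_union_of_disjoint hdisj]
    push_cast
    ring
  have e2 : (((Icc 1 X).filter (fun d => Squarefree d ∧ d % 4 = r ∧ (OK d ∨ OK' d) ∧
      ((OK d ∧ Rd d) ∨ (OK' d ∧ Rd' d)))).card : ℝ) = G1.card + G2.card := by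
    have hdisj : Disjoint G1 G2 := by
      rw [disjoint_left]
      intro d h1 h2
      rw [hG1, mem_filter] at h1
      rw [hG2, mem_filter] at h2
      exact hd d h1.2.2.2.1 h2.2.2.2.1
    have : (Icc 1 X).filter (fun d => Squarefree d ∧ d % 4 = r ∧ (OK d ∨ OK' d) ∧
      ((OK d ∧ Rd d) ∨ (OK' d ∧ Rd' d))) = G1 ∪ G2 := by
      ext d
      rw [mem_union, hG1, hG2, mem_filter, mem_filter, mem_filter]
      tauto
    rw [this, card_union_of_disjoint hdisj]
    push_cast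
    ring
  have key : η * (F1.card + F2.card : ℝ) - δ * X ≤ G1.card + G2.card := by linarith
  rw [← e1, ← e2] at key
  convert key

section glue

variable {ι : Type} [Fintype ι] (k r : ι → ℕ) (OK Rd : ι → ℕ → Prop)

/-- `n` is in one of the classes -/
def InC (n : ℕ) : Prop := ∃ i m, n = k i * m ∧ Squarefree m ∧ m % 4 = r i ∧ OK i m

/-- disjointness -/
def Disj : Prop := ∀ i j m m', i ≠ j → k i * m = k j * m' → m % 4 = r i → m' % 4 = r j →
  OK i m → OK j m' → False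

open Classical in
/-- the number of elements in the classes -/
theorem card_InC (hk : ∀ i, 0 < k i) (hd : Disj k r OK) (X : ℕ) :
    ((Icc 1 X).filter (InC k r OK)).card =
      ∑ i, ((Icc 1 (X / k i)).filter (fun d => Squarefree d ∧ d % 4 = r i ∧ OK i d)).card := by
  have e : (Icc 1 X).filter (InC k r OK) = univ.biUnion (fun i =>
      ((Icc 1 (X / k i)).filter (fun d => Squarefree d ∧ d % 4 = r i ∧ OK i d)).image
        (fun m => k i * m)) := by
    ext n
    rw [mem_filter, mem_biUnion, mem_Icc]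
    constructor
    · rintro ⟨⟨h1, h2⟩, i, m, rfl, h3, h4, h5⟩
      refine ⟨i, mem_univ _, mem_image.mpr ⟨m, mem_filter.mpr ⟨mem_Icc.mpr ⟨?_, ?_⟩, h3, h4, h5⟩,
        rfl⟩⟩
      · exact Nat.one_le_iff_ne_zero.mpr h3.ne_zero
      · rw [Nat.le_div_iff_mul_le (hk i), mul_comm]
        exact h2
    · rintro ⟨i, -, h⟩
      obtain ⟨m, hm, rfl⟩ := mem_image.mp h
      obtain ⟨h1, h3, h4, h5⟩ := mem_filter.mp hm
      rw [mem_Icc] at h1
      refine ⟨⟨?_, ?_⟩, i, m, rfl, h3, h4, h5⟩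
      · exact Nat.mul_pos (hk i) h1.1
      · have := (Nat.le_div_iff_mul_le (hk i)).mp h1.2
        rw [mul_comm]
        exact this
  rw [e, card_biUnion]
  · apply sum_congr rfl
    intro i _
    rw [card_image_of_injective _ (fun a b hab => Nat.eq_of_mul_eq_mul_left (hk i) hab)]
  · intro i _ j _ hij
    rw [Function.onFun, disjoint_left]
    intro n h1 h2
    obtain ⟨m, hm, rfl⟩ := mem_image.mp h1
    obtain ⟨m', hm', he⟩ := mem_image.mp h2
    obtain ⟨_, _, h4, h5⟩ := mem_filter.mp hm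
    obtain ⟨_, _, h4', h5'⟩ := mem_filter.mp hm'
    exact hd i j m m' hij he.symm h4 h4' h5 h5'

open Classical in
/-- density of the union of the classes -/
theorem glue (hk : ∀ i, 0 < k i) (hd : Disj k r OK) (F : ℕ → Prop)
    (hdens : ∀ i, Dens (r i) (OK i) (Rd i))
    (hF : ∀ i m, Squarefree m → m % 4 = r i → OK i m → Rd i m → F (k i * m)) :
    ∀ η δ : ℝ, η < eta → 0 < δ → ∃ X₀ : ℕ, ∀ X : ℕ, X₀ ≤ X →
      η * ((Icc 1 X).filter (InC k r OK)).card - δ * X ≤
        ((Icc 1 X).filter (fun n => InC k r OK n ∧ F n)).card := by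
  intro η δ hη hδ
  obtain ⟨δ', hδ', hle⟩ : ∃ δ' : ℝ, 0 < δ' ∧ (Fintype.card ι : ℝ) * δ' ≤ δ := by
    refine ⟨δ / (Fintype.card ι + 1), by positivity, ?_⟩
    rw [← mul_div_assoc, div_le_iff₀ (by positivity)]
    nlinarith
  choose A hA using fun i => (dens_iff _ _ _).mp (hdens i) η δ' hη hδ'
  refine ⟨∑ i, k i * A i, fun X hX => ?_⟩
  have h1 : ∀ i, A i ≤ X / k i := by
    intro i
    rw [Nat.le_div_iff_mul_le (hk i), mul_comm]
    exact (single_le_sum (f := fun i => k i * A i) (fun _ _ => Nat.zero_le _) (mem_univ i)).trans hX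
  have hX0 : (0 : ℝ) ≤ X := Nat.cast_nonneg X
  have h2 : ∀ i, η * ((Icc 1 (X / k i)).filter
      (fun d => Squarefree d ∧ d % 4 = r i ∧ OK i d)).card - δ' * X ≤
      ((Icc 1 (X / k i)).filter (fun d => Squarefree d ∧ d % 4 = r i ∧ OK i d ∧ Rd i d)).card := by
    intro i
    have h3 := hA i (X / k i) (h1 i)
    have h4 : ((X / k i : ℕ) : ℝ) ≤ X := by exact_mod_cast Nat.div_le_self X (k i)
    have h5 : δ' * ((X / k i : ℕ) : ℝ) ≤ δ' * X := mul_le_mul_of_nonneg_left h4 hδ'.le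
    linarith
  have h3 := sum_le_sum (s := univ) fun i _ => h2 i
  rw [sum_sub_distrib, ← mul_sum, sum_const, card_univ, nsmul_eq_mul] at h3
  have hd' : Disj k r (fun i m => OK i m ∧ Rd i m) := fun i j m m' hij he h4 h4' h5 h5' =>
    hd i j m m' hij he h4 h4' h5.1 h5'.1
  have h4 := card_InC k r (fun i m => OK i m ∧ Rd i m) hk hd' X
  have h5 : ((Icc 1 X).filter (InC k r (fun i m => OK i m ∧ Rd i m))).card ≤
      ((Icc 1 X).filter (fun n => InC k r OK n ∧ F n)).card := by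
    apply card_le_card
    intro n hn
    rw [mem_filter] at hn ⊢
    obtain ⟨hn1, i, m, rfl, h6, h7, h8, h9⟩ := hn
    exact ⟨hn1, ⟨i, m, rfl, h6, h7, h8⟩, hF i m h6 h7 h8 h9⟩
  rw [card_InC k r OK hk hd X]
  rw [h4] at h5
  have h6 : ((∑ i, ((Icc 1 (X / k i)).filter
      (fun d => Squarefree d ∧ d % 4 = r i ∧ OK i d ∧ Rd i d)).card : ℕ) : ℝ) ≤
      ((Icc 1 X).filter (fun n => InC k r OK n ∧ F n)).card := by
    have h8 : ∑ i, ((Icc 1 (X / k i)).filter
      (fun d => Squarefree d ∧ d % 4 = r i ∧ OK i d ∧ Rd i d)).card ≤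
      ((Icc 1 X).filter (fun n => InC k r OK n ∧ F n)).card := by convert h5
    exact_mod_cast h8
  push_cast at h6 ⊢
  have h7 : (Fintype.card ι : ℝ) * (δ' * X) ≤ δ * X := by
    rw [← mul_assoc]
    exact mul_le_mul_of_nonneg_right hle hX0
  linarith

open Classical in
/-- lower bound of the number of elements in the classes -/
theorem num (hk : ∀ i, 0 < k i) (hd : Disj k r OK) (a : ι → ℝ) (ha : ∀ i, 0 ≤ a i)
    (hnum : ∀ i, ∃ X₀ : ℕ, ∀ X : ℕ, X₀ ≤ X →
      a i * X ≤ ((Icc 1 X).filter (fun d => Squarefree d ∧ d % 4 = r i ∧ OK i d)).card) :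
    ∃ X₀ : ℕ, ∀ X : ℕ, X₀ ≤ X →
      (∑ i, a i / k i) * X - ∑ i, a i ≤ ((Icc 1 X).filter (InC k r OK)).card := by
  choose A hA using hnum
  refine ⟨∑ i, k i * A i, fun X hX => ?_⟩
  have h1 : ∀ i, A i ≤ X / k i := by
    intro i
    rw [Nat.le_div_iff_mul_le (hk i), mul_comm]
    exact (single_le_sum (f := fun i => k i * A i) (fun _ _ => Nat.zero_le _) (mem_univ i)).trans hX
  rw [card_InC k r OK hk hd X, sum_mul, ← sum_sub_distrib]
  push_cast
  apply sum_le_sum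
  intro i _
  refine le_trans ?_ (hA i (X / k i) (h1 i))
  have h2 : (X : ℝ) / k i - 1 ≤ ((X / k i : ℕ) : ℝ) := by
    have h3 : (0 : ℝ) < k i := by exact_mod_cast hk i
    rw [sub_le_iff_le_add, div_le_iff₀ h3]
    have h4 : X < (X / k i + 1) * k i := by
      rw [mul_comm]
      exact Nat.lt_mul_div_succ X (hk i)
    exact_mod_cast h4.le
  have h3 := mul_le_mul_of_nonneg_left h2 (ha i)
  have h4 : a i / k i * X - a i = a i * ((X : ℝ) / k i - 1) := by ring
  linarith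

open Classical in
/-- proportion `p` of all fundamental discriminants, and every proportion below `eta` of the union
of the classes -/
theorem final (hk : ∀ i, 0 < k i) (hd : Disj k r OK) (F : ℕ → Prop)
    (hdens : ∀ i, Dens (r i) (OK i) (Rd i))
    (hF : ∀ i m, Squarefree m → m % 4 = r i → OK i m → Rd i m → F (k i * m))
    (a : ι → ℝ) (ha : ∀ i, 0 ≤ a i)
    (hnum : ∀ i, ∃ X₀ : ℕ, ∀ X : ℕ, X₀ ≤ X →
      a i * X ≤ ((Icc 1 X).filter (fun d => Squarefree d ∧ d % 4 = r i ∧ OK i d)).card)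
    (hpos : 0 < ∑ i, a i / k i)
    (hfund : ∀ n, InC k r OK n → IsFund n) (hn2 : StmtNum2) (hn3 : StmtNum3) (p : ℝ)
    (hp0 : 0 ≤ p) (hp : p * (30397 / 100000) < 2887 / 10000 * ∑ i, a i / k i) :
    (∃ X₀ : ℕ, ∀ X : ℕ, X₀ ≤ X → p * ({n : ℕ | n ≤ X ∧ IsFund n}.ncard : ℝ) ≤
      ({n : ℕ | n ≤ X ∧ IsFund n ∧ F n}.ncard : ℝ)) ∧
    ∀ c : ℝ, c < eta → ∃ X₀ : ℕ, ∀ X : ℕ, X₀ ≤ X →
      c * ({n : ℕ | n ≤ X ∧ InC k r OK n}.ncard : ℝ) ≤
        ({n : ℕ | n ≤ X ∧ InC k r OK n ∧ F n}.ncard : ℝ) := by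
  have hg := glue k r OK Rd hk hd F hdens hF
  obtain ⟨N, hN⟩ := num k r OK hk hd a ha hnum
  set s : ℝ := ∑ i, a i / k i with hs
  set t : ℝ := ∑ i, a i with ht
  have ht0 : 0 ≤ t := sum_nonneg fun i _ => ha i
  have hinc : ∀ n, InC k r OK n → 1 ≤ n := by
    rintro n hn
    rcases hfund n hn with h' | ⟨m, hm, h', -⟩
    · exact Nat.one_le_iff_ne_zero.mpr h'.1.ne_zero
    · have := h'.ne_zero
      omega
  have hset : ∀ X : ℕ, ∀ P : ℕ → Prop, (∀ n, P n → 1 ≤ n) → {n : ℕ | n ≤ X ∧ P n} =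
      (((Icc 1 X).filter P : Finset ℕ) : Set ℕ) := by
    intro X P hP
    ext n
    rw [Set.mem_ofPred_eq, Finset.mem_coe, mem_filter, mem_Icc]
    constructor
    · rintro ⟨h, h'⟩
      exact ⟨⟨hP n h', h⟩, h'⟩
    · rintro ⟨⟨_, h⟩, h'⟩
      exact ⟨h, h'⟩
  constructor
  · obtain ⟨δ, hδ, hδ2⟩ : ∃ δ : ℝ, 0 < δ ∧ p * (30397 / 100000) + 2 * δ ≤ 2887 / 10000 * s :=
      ⟨(2887 / 10000 * s - p * (30397 / 100000)) / 2, by linarith, by linarith⟩
    obtain ⟨A, hA⟩ := hg (2887 / 10000) δ hn3 hδ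
    obtain ⟨C, hC⟩ := hn2
    obtain ⟨D, hD⟩ := exists_nat_gt (t / δ)
    refine ⟨A + C + N + D, fun X hX => ?_⟩
    have hA' := hA X (by omega)
    have hC' := hC X (by omega)
    have hN' := hN X (by omega)
    have hX0 : (0 : ℝ) ≤ X := Nat.cast_nonneg X
    have hD' : t ≤ δ * X := by
      have h1 : (D : ℝ) ≤ X := by exact_mod_cast (by omega : D ≤ X)
      have h2 : t / δ ≤ X := hD.le.trans h1
      rw [div_le_iff₀ hδ] at h2
      linarith
    rw [hset X IsFund (fun n h' => by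
      rcases h' with h' | ⟨m, hm, h', -⟩
      · exact Nat.one_le_iff_ne_zero.mpr h'.1.ne_zero
      · have := h'.ne_zero
        omega), Set.ncard_coe_finset]
    have h5 : (((Icc 1 X).filter (fun n => InC k r OK n ∧ F n)).card : ℝ) ≤
        ({n : ℕ | n ≤ X ∧ IsFund n ∧ F n}.ncard : ℝ) := by
      rw [← Set.ncard_coe_finset]
      apply Nat.cast_le.mpr
      apply Set.ncard_le_ncard _ ((Set.finite_Iic X).subset fun d hd => hd.1)
      intro n hn
      rw [Finset.mem_coe, mem_filter, mem_Icc] at hn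
      exact ⟨hn.1.2, hfund n hn.2.1, hn.2.2⟩
    have h6 := mul_le_mul_of_nonneg_left hC' hp0
    have h7 : p * (30397 / 100000 * X) + 2 * (δ * X) ≤ 2887 / 10000 * (s * X) := by
      have := mul_le_mul_of_nonneg_right hδ2 hX0
      nlinarith
    nlinarith
  · intro c hc
    obtain ⟨η, hcη, hη⟩ := exists_between hc
    have h1 : 0 < η - c := by linarith
    obtain ⟨A, hA⟩ := hg η ((η - c) * s / 2) hη (by positivity)
    obtain ⟨D, hD⟩ := exists_nat_gt (2 * t / s)
    refine ⟨A + N + D, fun X hX => ?_⟩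
    have hA' := hA X (by omega)
    have hN' := hN X (by omega)
    have hX0 : (0 : ℝ) ≤ X := Nat.cast_nonneg X
    have hD' : 2 * t ≤ s * X := by
      have h1 : (D : ℝ) ≤ X := by exact_mod_cast (by omega : D ≤ X)
      have h2 : 2 * t / s ≤ X := hD.le.trans h1
      rw [div_le_iff₀ hpos] at h2
      linarith
    rw [hset X (InC k r OK) hinc, Set.ncard_coe_finset,
      hset X (fun n => InC k r OK n ∧ F n) (fun n h' => hinc n h'.1), Set.ncard_coe_finset]
    have h2 : s / 2 * X ≤ ((Icc 1 X).filter (InC k r OK)).card := by linarith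
    have h3 := mul_le_mul_of_nonneg_left h2 h1.le
    have h4 : (η - c) * (s / 2 * X) = (η - c) * s / 2 * X := by ring
    have h5 : c * ((Icc 1 X).filter (InC k r OK)).card ≤
        η * ((Icc 1 X).filter (InC k r OK)).card - (η - c) * s / 2 * X := by linarith
    refine h5.trans (hA'.trans (le_of_eq ?_))
    congr

end glue

end Vale.Agent.P017.R4.H985
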