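import Vale.Agent.P017.R4.Defs2
import Vale.Agent.P017.R4.H985.Glue
import Vale.Agent.P017.R3.H985.Final

/-!
# P017: all discriminants, from the density theorems of the systems to the proportions
-/

open Finset NumberField

namespace Vale.Agent.P017.R4.H985

open Vale.Agent.P017.R3
open Vale.Agent.P017.R3.H985 (finite1 finite2)
open Vale.Agent.P017.H185

universe u

/-- finiteness of `X₀(15)(ℚ(√-n))` -/
def Fin15 (n : ℕ) : Prop :=
  ∀ (K : Type u) [Field K] [NumberField K] [Algebra.IsQuadraticExtension ℚ K] (θ : K),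
    θ ^ 2 = -(n : K) → Finite (X015.baseChange K).toAffine.Point

def kk : Fin 4 → ℕ := ![1, 4, 8, 8]

def rr : Fin 4 → ℕ := ![3, 1, 1, 3]

theorem kk_pos : ∀ i, 0 < kk i := by decide

theorem disj (OK : Fin 4 → ℕ → Prop) : Disj kk rr OK := by
  intro i j m m' hij he h1 h2 _ _
  fin_cases i <;> fin_cases j <;> simp [kk, rr] at hij he h1 h2 <;> omega

/-- the classes give fundamental discriminants -/
theorem fund_of {OK : Fin 4 → ℕ → Prop} {n : ℕ} (h : InC kk rr OK n) : IsFund n := by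
  obtain ⟨i, m, rfl, hsq, hr, -⟩ := h
  fin_cases i <;> simp [kk, rr] at hr ⊢
  · exact Or.inl ⟨hsq, hr⟩
  · exact Or.inr ⟨m, rfl, hsq, Or.inl hr⟩
  · refine Or.inr ⟨2 * m, by ring, ?_, Or.inr (by omega)⟩
    rw [Nat.squarefree_mul]
    · exact ⟨Nat.prime_two.squarefree, hsq⟩
    · rw [Nat.coprime_two_left]
      exact Nat.odd_iff.mpr (by omega)
  · refine Or.inr ⟨2 * m, by ring, ?_, Or.inr (by omega)⟩
    rw [Nat.squarefree_mul]
    · exact ⟨Nat.prime_two.squarefree, hsq⟩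
    · rw [Nat.coprime_two_left]
      exact Nat.odd_iff.mpr (by omega)

/-- fundamental discriminants and the four classes -/
theorem fund_iff {OK : Fin 4 → ℕ → Prop} {L : ℕ → Prop}
    (h0 : ∀ m, m % 4 = 3 → (OK 0 m ↔ L m)) (h1 : ∀ m, m % 4 = 1 → (OK 1 m ↔ L (4 * m)))
    (h2 : ∀ m, m % 4 = 1 → (OK 2 m ↔ L (8 * m))) (h3 : ∀ m, m % 4 = 3 → (OK 3 m ↔ L (8 * m)))
    (n : ℕ) : InC kk rr OK n ↔ IsFund n ∧ L n := by
  constructor
  · intro h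
    refine ⟨fund_of h, ?_⟩
    obtain ⟨i, m, rfl, hsq, hr, hok⟩ := h
    fin_cases i
    · simp [kk, rr] at hr hok ⊢
      exact (h0 m hr).mp hok
    · simp [kk, rr] at hr hok ⊢
      exact (h1 m hr).mp hok
    · simp [kk, rr] at hr hok ⊢
      exact (h2 m hr).mp hok
    · simp [kk, rr] at hr hok ⊢
      exact (h3 m hr).mp hok
  · rintro ⟨⟨hsq, h4⟩ | ⟨m, rfl, hsq, h4 | h4⟩, hL⟩
    · exact ⟨0, n, by simp [kk], hsq, h4, (h0 n h4).mpr hL⟩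
    · exact ⟨1, m, rfl, hsq, h4, (h1 m h4).mpr hL⟩
    · obtain ⟨m', rfl⟩ : ∃ m', m = 2 * m' := ⟨m / 2, by omega⟩
      have hsq' : Squarefree m' := hsq.squarefree_of_dvd (dvd_mul_left m' 2)
      have e : 4 * (2 * m') = 8 * m' := by ring
      rw [e] at hL ⊢
      rcases (by omega : m' % 4 = 1 ∨ m' % 4 = 3) with h5 | h5
      · exact ⟨2, m', rfl, hsq', h5, (h2 m' h5).mpr hL⟩
      · exact ⟨3, m', rfl, hsq', h5, (h3 m' h5).mpr hL⟩

theorem okc4 (m : ℕ) : OKc m ↔ OKc (4 * m) := by unfold OKc; omega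
theorem okc8 (m : ℕ) : OKc (2 * m) ↔ OKc (8 * m) := by unfold OKc; omega
theorem ok24 (m : ℕ) : OK2 m ↔ OK2 (4 * m) := by unfold OK2; omega
theorem ok28 (m : ℕ) : OK2 (2 * m) ↔ OK2 (8 * m) := by unfold OK2; omega
theorem dj (m : ℕ) : OKc m → OK2 m → False := fun h1 h2 => Vale.Agent.P017.R3.H985.disj h1 h2

/-- half of the square root -/
theorem half {K : Type u} [Field K] [NumberField K] {n m : ℕ} (hnm : n = 4 * m) {θ : K}
    (hθ : θ ^ 2 = -(n : K)) : (θ / 2) ^ 2 = -(m : K) := by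
  rw [div_pow, hθ, hnm]
  push_cast
  ring

/-- the finiteness criterion of system 2 -/
theorem fin_cond {D n : ℕ} (hD : Squarefree D) (hn : n = 4 * D) (h1 : Cond1 (D : ℚ))
    (h2 : Cond2 (D : ℚ)) : Fin15.{u} n := by
  intro K _ _ _ θ hθ
  obtain ⟨q⟩ := exists_QF_of_sqrt hD (half hn hθ)
  have hd0 : (D : ℚ) ≠ 0 := by exact_mod_cast q.d_pos.ne'
  exact finite_X015 K (finite_EK q finite_EQ' (finite_ED hd0 h1 h2))

theorem sq2 {m : ℕ} (hsq : Squarefree m) (ho : Odd m) : Squarefree (2 * m) := by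
  rw [Nat.squarefree_mul]
  · exact ⟨Nat.prime_two.squarefree, hsq⟩
  · rw [Nat.coprime_two_left]; exact ho

/-! ### One type of discriminants -/

theorem gcdk (i : Fin 4) {m : ℕ} (h : m % 4 = rr i) : (kk i * m).gcd 8 = kk i := by
  have ho : Nat.Coprime m 8 := by
    have : Odd m := by
      rw [Nat.odd_iff]
      fin_cases i <;> simp [rr] at h <;> omega
    rw [show (8 : ℕ) = 2 ^ 3 by norm_num]
    exact Nat.Coprime.pow_right 3 (Nat.coprime_two_right.mpr this)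
  fin_cases i
  · simpa [kk] using ho
  · show (4 * m).gcd 8 = 4
    rw [show (8 : ℕ) = 4 * 2 by norm_num, Nat.gcd_mul_left]
    have h2 : Nat.Coprime m 2 := Nat.Coprime.coprime_dvd_right (by norm_num) ho
    rw [h2.gcd_eq_one]
  · show (8 * m).gcd 8 = 8
    simp
  · show (8 * m).gcd 8 = 8
    simp

theorem inC_sub (OK : Fin 4 → ℕ → Prop) (j n : ℕ) :
    InC (fun i : {i : Fin 4 // kk i = j} => kk i) (fun i => rr i) (fun i => OK i) n ↔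
      InC kk rr OK n ∧ n.gcd 8 = j := by
  constructor
  · rintro ⟨⟨i, hi⟩, m, rfl, h1, h2, h3⟩
    exact ⟨⟨i, m, rfl, h1, h2, h3⟩, (gcdk i h2).trans hi⟩
  · rintro ⟨⟨i, m, rfl, h1, h2, h3⟩, h4⟩
    exact ⟨⟨i, (gcdk i h2).symm.trans h4⟩, m, rfl, h1, h2, h3⟩

open Classical in
theorem byclass (OK Rd : Fin 4 → ℕ → Prop) (F : ℕ → Prop)
    (hd : ∀ i, Dens (rr i) (OK i) (Rd i))
    (hF : ∀ i m, Squarefree m → m % 4 = rr i → OK i m → Rd i m → F (kk i * m))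
    (a : Fin 4 → ℝ) (ha : ∀ i, 0 < a i)
    (hnum : ∀ i, ∃ X₀ : ℕ, ∀ X : ℕ, X₀ ≤ X →
      a i * X ≤ ((Icc 1 X).filter (fun d => Squarefree d ∧ d % 4 = rr i ∧ OK i d)).card)
    (hn2 : StmtNum2) (hn3 : StmtNum3) (j : ℕ) (hj : j = 1 ∨ j = 4 ∨ j = 8) :
    ∀ c : ℝ, c < eta → ∃ X₀ : ℕ, ∀ X : ℕ, X₀ ≤ X →
      c * ({n : ℕ | n ≤ X ∧ InC kk rr OK n ∧ n.gcd 8 = j}.ncard : ℝ) ≤
        ({n : ℕ | n ≤ X ∧ (InC kk rr OK n ∧ n.gcd 8 = j) ∧ F n}.ncard : ℝ) := by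
  have hpos : 0 < ∑ i : {i : Fin 4 // kk i = j}, a i / kk i := by
    apply sum_pos
    · intro i _
      exact div_pos (ha i) (by exact_mod_cast kk_pos i)
    · rcases hj with rfl | rfl | rfl
      · exact ⟨⟨0, rfl⟩, mem_univ _⟩
      · exact ⟨⟨1, rfl⟩, mem_univ _⟩
      · exact ⟨⟨2, rfl⟩, mem_univ _⟩
  have hfin := final (fun i : {i : Fin 4 // kk i = j} => kk i) (fun i => rr i) (fun i => OK i)
    (fun i => Rd i) (fun i => kk_pos i)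
    (fun i i' m m' hii he h1 h2 h3 h4 => disj OK i i' m m' (fun h => hii (Subtype.ext h)) he h1 h2
      h3 h4) F (fun i => hd i) (fun i => hF i) (fun i => a i) (fun i => (ha i).le)
    (fun i => hnum i) hpos (fun n hn => fund_of ((inC_sub OK j n).mp hn).1) hn2 hn3 0 le_rfl (by
      rw [zero_mul]
      exact mul_pos (by norm_num) hpos)
  intro c hc
  obtain ⟨Y, hY⟩ := hfin.2 c hc
  refine ⟨Y, fun X hX => ?_⟩
  have h := hY X hX
  simp only [inC_sub] at h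
  exact h

/-! ### Stage 1 -/

def ok1 : Fin 4 → ℕ → Prop :=
  ![fun m => OKc m ∨ OK2 m, OKc, fun m => OKc (2 * m), fun m => OKc (2 * m)]

def rd1 : Fin 4 → ℕ → Prop :=
  ![fun m => (OKc m ∧ Redei m) ∨ (OK2 m ∧ Rd2 m), fun m => m % 4 = 1 → Redei2 m,
    fun m => (m % 4 = 1 ↔ (1 : ZMod 2) = 1) → Redei (2 * m),
    fun m => (m % 4 = 1 ↔ (0 : ZMod 2) = 1) → Redei (2 * m)]

/-- `3` not inert and `5` not split, or (`n` odd) `3` inert and `5` split -/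
def L1 (n : ℕ) : Prop := OKc n ∨ (Odd n ∧ OK2 n)

theorem in1 (n : ℕ) : InC kk rr ok1 n ↔ IsFund n ∧ L1 n := by
  apply fund_iff
  · intro m hm
    show (OKc m ∨ OK2 m) ↔ OKc m ∨ (Odd m ∧ OK2 m)
    have : Odd m := Nat.odd_iff.mpr (by omega)
    simp [this]
  · intro m _
    show OKc m ↔ OKc (4 * m) ∨ (Odd (4 * m) ∧ OK2 (4 * m))
    have : ¬ Odd (4 * m) := by rw [Nat.odd_iff]; omega
    simp only [this, false_and, or_false]
    exact okc4 m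
  · intro m _
    show OKc (2 * m) ↔ OKc (8 * m) ∨ (Odd (8 * m) ∧ OK2 (8 * m))
    have : ¬ Odd (8 * m) := by rw [Nat.odd_iff]; omega
    simp only [this, false_and, or_false]
    exact okc8 m
  · intro m _
    show OKc (2 * m) ↔ OKc (8 * m) ∨ (Odd (8 * m) ∧ OK2 (8 * m))
    have : ¬ Odd (8 * m) := by rw [Nat.odd_iff]; omega
    simp only [this, false_and, or_false]
    exact okc8 m

theorem fin0 {m : ℕ} (hsq : Squarefree m) (hr : m % 4 = 3)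
    (hR : (OKc m ∧ Redei m) ∨ (OK2 m ∧ Rd2 m)) : Fin15.{u} (1 * m) := by
  rw [one_mul]
  intro K _ _ _ θ hθ
  rcases hR with ⟨h, h'⟩ | ⟨h, h'⟩
  · exact finite1 hsq hr h h' K θ hθ
  · exact finite2 hsq hr h' K θ hθ

theorem stage1 (h1 : S1.StmtDens) (h2 : S2.StmtDens) (h3 : StmtDens8 S2' 1)
    (h4 : StmtDens8 (S3 1) 1) (h5 : StmtDens8 (S3 0) 3) (f2 : StmtFin2.{u}) (f3 : StmtFin3.{u})
    (hn2 : StmtNum2) (hn3 : StmtNum3) (hn4 : StmtNum4) (hn5 : StmtNum5) (hn6 : StmtNum6) :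
    (∃ X₀ : ℕ, ∀ X : ℕ, X₀ ≤ X → (135 / 1000 : ℝ) * ({n : ℕ | n ≤ X ∧ IsFund n}.ncard : ℝ) ≤
      ({n : ℕ | n ≤ X ∧ IsFund n ∧ Fin15.{u} n}.ncard : ℝ)) ∧
    (∀ c : ℝ, c < eta → ∃ X₀ : ℕ, ∀ X : ℕ, X₀ ≤ X →
      c * ({n : ℕ | n ≤ X ∧ IsFund n ∧ L1 n}.ncard : ℝ) ≤
        ({n : ℕ | n ≤ X ∧ IsFund n ∧ L1 n ∧ Fin15.{u} n}.ncard : ℝ)) ∧
    ∀ j : ℕ, (j = 1 ∨ j = 4 ∨ j = 8) → ∀ c : ℝ, c < eta → ∃ X₀ : ℕ, ∀ X : ℕ, X₀ ≤ X →
      c * ({n : ℕ | n ≤ X ∧ IsFund n ∧ n.gcd 8 = j ∧ L1 n}.ncard : ℝ) ≤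
        ({n : ℕ | n ≤ X ∧ IsFund n ∧ n.gcd 8 = j ∧ L1 n ∧ Fin15.{u} n}.ncard : ℝ) := by
  classical
  have hd : ∀ i, Dens (rr i) (ok1 i) (rd1 i) := by
    intro i
    fin_cases i
    · exact dens_or (dens_old S1 h1) (dens_old S2 h2) dj
    · exact dens_new S2' 1 h3
    · exact dens_new (S3 1) 1 h4
    · exact dens_new (S3 0) 3 h5
  have hF : ∀ i m, Squarefree m → m % 4 = rr i → ok1 i m → rd1 i m → Fin15.{u} (kk i * m) := by
    intro i m hsq hr hok hR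
    fin_cases i
    · exact fin0 hsq hr hR
    · exact fun K _ _ _ θ hθ => f2 m hsq hr hok (hR hr) K θ hθ
    · have hr' : m % 4 = 1 := hr
      exact fun K _ _ _ θ hθ => f3 m hsq (Nat.odd_iff.mpr (by omega)) hok
        (hR (by simp [hr'])) K θ hθ
    · have hr' : m % 4 = 3 := hr
      exact fun K _ _ _ θ hθ => f3 m hsq (Nat.odd_iff.mpr (by omega)) hok
        (hR (by simp [hr'])) K θ hθ
  let a : Fin 4 → ℝ := ![1055 / 10000, 7385 / 100000, 7385 / 100000, 7385 / 100000]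
  have ha : ∀ i, 0 < a i := by intro i; fin_cases i <;> simp [a]
  have hs : ∑ i, a i / kk i = 142425 / 1000000 := by
    rw [Fin.sum_univ_four]
    simp [a, kk]
    norm_num
  have hnum : ∀ i, ∃ X₀ : ℕ, ∀ X : ℕ, X₀ ≤ X →
      a i * X ≤ ((Icc 1 X).filter (fun d => Squarefree d ∧ d % 4 = rr i ∧ ok1 i d)).card := by
    intro i
    fin_cases i
    · obtain ⟨Y, hY⟩ := hn4
      refine ⟨Y, fun X hX => (hY X hX).trans (le_of_eq ?_)⟩
      congr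
    · obtain ⟨Y, hY⟩ := hn5
      refine ⟨Y, fun X hX => (hY X hX).trans (le_of_eq ?_)⟩
      congr
    · obtain ⟨Y, hY⟩ := hn6 1 (Or.inl rfl)
      refine ⟨Y, fun X hX => (hY X hX).trans (le_of_eq ?_)⟩
      congr
    · obtain ⟨Y, hY⟩ := hn6 3 (Or.inr rfl)
      refine ⟨Y, fun X hX => (hY X hX).trans (le_of_eq ?_)⟩
      congr
  have hfin := final kk rr ok1 rd1 kk_pos (disj ok1) Fin15.{u} hd hF a
    (fun i => (ha i).le) hnum (by rw [hs]; norm_num)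
    (fun n hn => fund_of hn) hn2 hn3 (135 / 1000) (by norm_num) (by rw [hs]; norm_num)
  refine ⟨hfin.1, fun c hc => ?_, fun j hj c hc => ?_⟩
  · obtain ⟨Y, hY⟩ := hfin.2 c hc
    refine ⟨Y, fun X hX => ?_⟩
    have h6 := hY X hX
    simp only [in1, and_assoc] at h6
    exact h6
  · obtain ⟨Y, hY⟩ := byclass ok1 rd1 Fin15.{u} hd hF a ha hnum hn2 hn3 j hj c hc
    refine ⟨Y, fun X hX => ?_⟩
    have h6 := hY X hX
    have e1 : ∀ n, (InC kk rr ok1 n ∧ n.gcd 8 = j) ↔ (IsFund n ∧ n.gcd 8 = j ∧ L1 n) := by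
      intro n
      rw [in1]
      tauto
    simp only [e1, and_assoc] at h6
    exact h6

/-! ### Stage 2 -/

def ok2 : Fin 4 → ℕ → Prop :=
  ![fun m => OKc m ∨ OK2 m, fun m => OKc m ∨ OK2 m, fun m => OKc (2 * m) ∨ OK2 (2 * m),
    fun m => OKc (2 * m) ∨ OK2 (2 * m)]

def rd2 : Fin 4 → ℕ → Prop :=
  ![fun m => (OKc m ∧ Redei m) ∨ (OK2 m ∧ Rd2 m),
    fun m => (OKc m ∧ (m % 4 = 1 → Redei2 m)) ∨
      (OK2 m ∧ (m % 4 = 1 → Cond1 (m : ℚ) ∧ Cond2 (m : ℚ))),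
    fun m => (OKc (2 * m) ∧ ((m % 4 = 1 ↔ (1 : ZMod 2) = 1) → Redei (2 * m))) ∨
      (OK2 (2 * m) ∧ ((m % 4 = 1 ↔ (1 : ZMod 2) = 1) →
        Cond1 ((2 * m : ℕ) : ℚ) ∧ Cond2 ((2 * m : ℕ) : ℚ))),
    fun m => (OKc (2 * m) ∧ ((m % 4 = 1 ↔ (0 : ZMod 2) = 1) → Redei (2 * m))) ∨
      (OK2 (2 * m) ∧ ((m % 4 = 1 ↔ (0 : ZMod 2) = 1) →
        Cond1 ((2 * m : ℕ) : ℚ) ∧ Cond2 ((2 * m : ℕ) : ℚ)))]

theorem in2 (n : ℕ) : InC kk rr ok2 n ↔ IsFund n ∧ (OKc n ∨ OK2 n) := by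
  apply fund_iff
  · intro m _
    exact Iff.rfl
  · intro m _
    exact or_congr (okc4 m) (ok24 m)
  · intro m _
    exact or_congr (okc8 m) (ok28 m)
  · intro m _
    exact or_congr (okc8 m) (ok28 m)

theorem stage2 (h1 : S1.StmtDens) (h2 : S2.StmtDens) (h3 : StmtDens8 S2' 1)
    (h4 : StmtDens8 (S3 1) 1) (h5 : StmtDens8 (S3 0) 3) (h6 : StmtDens8 S2s 1)
    (h7 : StmtDens8 (S3s 1) 1) (h8 : StmtDens8 (S3s 0) 3)
    (f2 : StmtFin2.{u}) (f3 : StmtFin3.{u})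
    (hn2 : StmtNum2) (hn3 : StmtNum3) (hn4 : StmtNum4) (hn7 : StmtNum7) (hn8 : StmtNum8) :
    (∃ X₀ : ℕ, ∀ X : ℕ, X₀ ≤ X → (15 / 100 : ℝ) * ({n : ℕ | n ≤ X ∧ IsFund n}.ncard : ℝ) ≤
      ({n : ℕ | n ≤ X ∧ IsFund n ∧ Fin15.{u} n}.ncard : ℝ)) ∧
    (∀ c : ℝ, c < eta → ∃ X₀ : ℕ, ∀ X : ℕ, X₀ ≤ X →
      c * ({n : ℕ | n ≤ X ∧ IsFund n ∧ (OKc n ∨ OK2 n)}.ncard : ℝ) ≤
        ({n : ℕ | n ≤ X ∧ IsFund n ∧ (OKc n ∨ OK2 n) ∧ Fin15.{u} n}.ncard : ℝ)) ∧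
    ∀ j : ℕ, (j = 1 ∨ j = 4 ∨ j = 8) → ∀ c : ℝ, c < eta → ∃ X₀ : ℕ, ∀ X : ℕ, X₀ ≤ X →
      c * ({n : ℕ | n ≤ X ∧ IsFund n ∧ n.gcd 8 = j ∧ (OKc n ∨ OK2 n)}.ncard : ℝ) ≤
        ({n : ℕ | n ≤ X ∧ IsFund n ∧ n.gcd 8 = j ∧ (OKc n ∨ OK2 n) ∧
          Fin15.{u} n}.ncard : ℝ) := by
  classical
  have hd : ∀ i, Dens (rr i) (ok2 i) (rd2 i) := by
    intro i
    fin_cases i
    · exact dens_or (dens_old S1 h1) (dens_old S2 h2) dj
    · exact dens_or (dens_new S2' 1 h3) (dens_new S2s 1 h6) dj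
    · exact dens_or (dens_new (S3 1) 1 h4) (dens_new (S3s 1) 1 h7) (fun m => dj (2 * m))
    · exact dens_or (dens_new (S3 0) 3 h5) (dens_new (S3s 0) 3 h8) (fun m => dj (2 * m))
  have hF : ∀ i m, Squarefree m → m % 4 = rr i → ok2 i m → rd2 i m → Fin15.{u} (kk i * m) := by
    intro i m hsq hr _ hR
    fin_cases i
    · exact fin0 hsq hr hR
    · have hr' : m % 4 = 1 := hr
      rcases hR with ⟨hok, hR⟩ | ⟨_, hR⟩
      · exact fun K _ _ _ θ hθ => f2 m hsq hr' hok (hR hr') K θ hθ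
      · exact fin_cond hsq rfl (hR hr').1 (hR hr').2
    · have hr' : m % 4 = 1 := hr
      have ho : Odd m := Nat.odd_iff.mpr (by omega)
      have hk : (m % 4 = 1 ↔ (1 : ZMod 2) = 1) := by simp [hr']
      rcases hR with ⟨hok, hR⟩ | ⟨_, hR⟩
      · exact fun K _ _ _ θ hθ => f3 m hsq ho hok (hR hk) K θ hθ
      · exact fin_cond (sq2 hsq ho) (by show 8 * m = 4 * (2 * m); ring) (hR hk).1 (hR hk).2
    · have hr' : m % 4 = 3 := hr
      have ho : Odd m := Nat.odd_iff.mpr (by omega)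
      have hk : (m % 4 = 1 ↔ (0 : ZMod 2) = 1) := by simp [hr']
      rcases hR with ⟨hok, hR⟩ | ⟨_, hR⟩
      · exact fun K _ _ _ θ hθ => f3 m hsq ho hok (hR hk) K θ hθ
      · exact fin_cond (sq2 hsq ho) (by show 8 * m = 4 * (2 * m); ring) (hR hk).1 (hR hk).2
  let a : Fin 4 → ℝ := fun _ => 1055 / 10000
  have ha : ∀ i, 0 < a i := by intro i; simp only [a]; norm_num
  have hs : ∑ i, a i / kk i = 15825 / 100000 := by
    rw [Fin.sum_univ_four]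
    simp [a, kk]
    norm_num
  have hnum : ∀ i, ∃ X₀ : ℕ, ∀ X : ℕ, X₀ ≤ X →
      a i * X ≤ ((Icc 1 X).filter (fun d => Squarefree d ∧ d % 4 = rr i ∧ ok2 i d)).card := by
    intro i
    fin_cases i
    · obtain ⟨Y, hY⟩ := hn4
      refine ⟨Y, fun X hX => (hY X hX).trans (le_of_eq ?_)⟩
      congr
    · obtain ⟨Y, hY⟩ := hn7
      refine ⟨Y, fun X hX => (hY X hX).trans (le_of_eq ?_)⟩
      congr
    · obtain ⟨Y, hY⟩ := hn8 1 (Or.inl rfl)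
      refine ⟨Y, fun X hX => (hY X hX).trans (le_of_eq ?_)⟩
      congr
    · obtain ⟨Y, hY⟩ := hn8 3 (Or.inr rfl)
      refine ⟨Y, fun X hX => (hY X hX).trans (le_of_eq ?_)⟩
      congr
  have hfin := final kk rr ok2 rd2 kk_pos (disj ok2) Fin15.{u} hd hF a
    (fun i => (ha i).le) hnum (by rw [hs]; norm_num)
    (fun n hn => fund_of hn) hn2 hn3 (15 / 100) (by norm_num) (by rw [hs]; norm_num)
  refine ⟨hfin.1, fun c hc => ?_, fun j hj c hc => ?_⟩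
  · obtain ⟨Y, hY⟩ := hfin.2 c hc
    refine ⟨Y, fun X hX => ?_⟩
    have h9 := hY X hX
    simp only [in2, and_assoc] at h9
    exact h9
  · obtain ⟨Y, hY⟩ := byclass ok2 rd2 Fin15.{u} hd hF a ha hnum hn2 hn3 j hj c hc
    refine ⟨Y, fun X hX => ?_⟩
    have h9 := hY X hX
    have e1 : ∀ n, (InC kk rr ok2 n ∧ n.gcd 8 = j) ↔
        (IsFund n ∧ n.gcd 8 = j ∧ (OKc n ∨ OK2 n)) := by
      intro n
      rw [in2]
      tauto
    simp only [e1, and_assoc] at h9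
    exact h9

end Vale.Agent.P017.R4.H985
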