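import Vale.Agent.P017.R3.H985.All
import Vale.Agent.P017.R4.H160.CellGen8
import Vale.Agent.P017.R4.H222.AsmGen8
import Vale.Agent.P017.R4.H222.Ex8
import Vale.Agent.P017.R4.H222.NoFour1
import Vale.Agent.P017.R4.H224.St1
import Vale.Agent.P017.R4.H441.Bad8
import Vale.Agent.P017.R4.H524.Num56
import Vale.Agent.P017.R4.H524.Num78
import Vale.Agent.P017.R4.H538.Red2
import Vale.Agent.P017.R4.H538.Red3
import Vale.Agent.P017.R4.H68.Char
import Vale.Agent.P017.R4.H927.Fin3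
import Vale.Agent.P017.R4.H985.Final

/-!
# P017: assembly of the density theorems for even discriminants
-/

namespace Vale.Agent.P017.R4.H985

open Vale.Agent.P017.R3 Vale.Agent.P017.R4

theorem stmtCk' : StmtCk :=
  Vale.Agent.P017.R3.H445.stmtCk Vale.Agent.P017.R3.H985.stmtFirst2
    Vale.Agent.P017.R2.H916.stmtId Vale.Agent.P017.R3.H441.stmtSieve
    Vale.Agent.P017.R3.H224.stmtDict

theorem stmtBad8' : StmtBad8 :=
  Vale.Agent.P017.R4.H441.stmtBad8 Vale.Agent.P017.R3.H68.stmtPNT Vale.Agent.P017.R3.H68.stmtChar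
    Vale.Agent.P017.R4.H68.stmtChar8

/-- the density theorem for a system -/
theorem dens8 (S : Sys) (h : Hyp8 S ∧ S.StmtRM) {r : ℕ} (hr : r = 1 ∨ r = 3) : StmtDens8 S r :=
  Vale.Agent.P017.R4.H222.stmtAsmGen8
    (Vale.Agent.P017.R3.H445.stmtTK Vale.Agent.P017.R3.H68.stmtPNT)
    Vale.Agent.P017.R3.H160.stmtSmooth Vale.Agent.P017.R3.H160.stmtSame stmtCk'
    (Vale.Agent.P017.R4.H222.stmtEx8 stmtBad8') S h.1
    (Vale.Agent.P017.R4.H160.stmtCellGen8 S h.1) h.2 r hr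

theorem stmtRM' : StmtRM :=
  Vale.Agent.P017.R3.H285.stmtRM Vale.Agent.P017.R3.H916.stmtLA1 Vale.Agent.P017.R3.H237.stmtLA2
    Vale.Agent.P017.R3.H237.stmtLA3

theorem stmtRMg' : StmtRMg :=
  Vale.Agent.P017.R3.H285.stmtRMg Vale.Agent.P017.R3.H916.stmtLA1 Vale.Agent.P017.R3.H237.stmtLA2
    Vale.Agent.P017.R3.H237.stmtLA3g

/-- discriminants `-8m`, 3 not inert, 5 not split -/
theorem dens3 : StmtDens8 (S3 1) 1 ∧ StmtDens8 (S3 0) 3 := by
  have h := Vale.Agent.P017.R4.H224.stmtS3 Vale.Agent.P017.R4.H538.stmtRed3 stmtRM'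
  exact ⟨dens8 (S3 1) (h 1) (Or.inl rfl), dens8 (S3 0) (h 0) (Or.inr rfl)⟩

/-- discriminants `-4m`, 3 not inert, 5 not split -/
theorem dens2 (h : StmtRM3) : StmtDens8 S2' 1 :=
  dens8 S2' (Vale.Agent.P017.R4.H224.stmtS2' Vale.Agent.P017.R4.H538.stmtRed2' h) (Or.inl rfl)

end Vale.Agent.P017.R4.H985
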