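import Vale.Agent.P017.R4.Defs2
import Vale.Agent.P017.R4.H985.Base

/-!
# P017: both stages from the last rows
-/

namespace Vale.Agent.P017.R4.H985

open Vale.Agent.P017.R3 Vale.Agent.P017.R4

universe u

/-- stage 1 -/
theorem stage1_of (hL : StmtRM3) :
    (∃ X₀ : ℕ, ∀ X : ℕ, X₀ ≤ X → (135 / 1000 : ℝ) * ({n : ℕ | n ≤ X ∧ IsFund n}.ncard : ℝ) ≤
      ({n : ℕ | n ≤ X ∧ IsFund n ∧ Fin15.{u} n}.ncard : ℝ)) ∧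
    (∀ c : ℝ, c < eta → ∃ X₀ : ℕ, ∀ X : ℕ, X₀ ≤ X →
      c * ({n : ℕ | n ≤ X ∧ IsFund n ∧ L1 n}.ncard : ℝ) ≤
        ({n : ℕ | n ≤ X ∧ IsFund n ∧ L1 n ∧ Fin15.{u} n}.ncard : ℝ)) ∧
    ∀ j : ℕ, (j = 1 ∨ j = 4 ∨ j = 8) → ∀ c : ℝ, c < eta → ∃ X₀ : ℕ, ∀ X : ℕ, X₀ ≤ X →
      c * ({n : ℕ | n ≤ X ∧ IsFund n ∧ n.gcd 8 = j ∧ L1 n}.ncard : ℝ) ≤
        ({n : ℕ | n ≤ X ∧ IsFund n ∧ n.gcd 8 = j ∧ L1 n ∧ Fin15.{u} n}.ncard : ℝ) :=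
  stage1 Vale.Agent.P017.R3.H985.dens.1 Vale.Agent.P017.R3.H985.dens.2 (dens2 hL) dens3.1 dens3.2
    Vale.Agent.P017.R4.H222.stmtFin2 Vale.Agent.P017.R4.H927.stmtFin3
    Vale.Agent.P017.R3.H524.stmtNum2 Vale.Agent.P017.R3.H524.stmtNum3
    Vale.Agent.P017.R3.H524.stmtNum4 Vale.Agent.P017.R4.H524.stmtNum5
    Vale.Agent.P017.R4.H524.stmtNum6

/-- stage 2 -/
theorem stage2_of (hL : StmtRM3) (hL5 : StmtRM5) (hE1 : StmtE1) (hE2 : StmtE2) (hE3 : StmtE3)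
    (hE4 : StmtE4) (hD5 : StmtS3s) (hD6 : StmtS2s) :
    (∃ X₀ : ℕ, ∀ X : ℕ, X₀ ≤ X → (15 / 100 : ℝ) * ({n : ℕ | n ≤ X ∧ IsFund n}.ncard : ℝ) ≤
      ({n : ℕ | n ≤ X ∧ IsFund n ∧ Fin15.{u} n}.ncard : ℝ)) ∧
    (∀ c : ℝ, c < eta → ∃ X₀ : ℕ, ∀ X : ℕ, X₀ ≤ X →
      c * ({n : ℕ | n ≤ X ∧ IsFund n ∧ (OKc n ∨ OK2 n)}.ncard : ℝ) ≤
        ({n : ℕ | n ≤ X ∧ IsFund n ∧ (OKc n ∨ OK2 n) ∧ Fin15.{u} n}.ncard : ℝ)) ∧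
    ∀ j : ℕ, (j = 1 ∨ j = 4 ∨ j = 8) → ∀ c : ℝ, c < eta → ∃ X₀ : ℕ, ∀ X : ℕ, X₀ ≤ X →
      c * ({n : ℕ | n ≤ X ∧ IsFund n ∧ n.gcd 8 = j ∧ (OKc n ∨ OK2 n)}.ncard : ℝ) ≤
        ({n : ℕ | n ≤ X ∧ IsFund n ∧ n.gcd 8 = j ∧ (OKc n ∨ OK2 n) ∧
          Fin15.{u} n}.ncard : ℝ) := by
  have h3 := hD5 hE1 hE2 stmtRMg'
  have h2 := hD6 hE3 hE4 hL5
  exact stage2 Vale.Agent.P017.R3.H985.dens.1 Vale.Agent.P017.R3.H985.dens.2 (dens2 hL) dens3.1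
    dens3.2 (dens8 S2s h2 (Or.inl rfl)) (dens8 (S3s 1) (h3 1) (Or.inl rfl))
    (dens8 (S3s 0) (h3 0) (Or.inr rfl))
    Vale.Agent.P017.R4.H222.stmtFin2 Vale.Agent.P017.R4.H927.stmtFin3
    Vale.Agent.P017.R3.H524.stmtNum2 Vale.Agent.P017.R3.H524.stmtNum3
    Vale.Agent.P017.R3.H524.stmtNum4 Vale.Agent.P017.R4.H524.stmtNum7
    Vale.Agent.P017.R4.H524.stmtNum8

end Vale.Agent.P017.R4.H985
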