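import Vale.Agent.P017.R4.H985.All1
import Vale.Agent.P017.R4.H985.E24
import Vale.Agent.P017.R4.H224.St2
import Vale.Agent.P017.R4.H472.Plug
import Vale.Agent.P017.R4.H538.E24lin
import Vale.Agent.P017.R4.H597.E13

/-!
# P017: stage 2
-/

namespace Vale.Agent.P017.R4.H985

open Vale.Agent.P017.R3 Vale.Agent.P017.R4

universe u

theorem stmtE2 : StmtE2 := stmtE2_of fun a b c d e f g h i j k l m n =>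
  Vale.Agent.P017.R4.H538.lin3 a b c d e f g h i j k l m n

theorem stmtE4 : StmtE4 := stmtE4_of fun a b c d e f g h i j k l m n =>
  Vale.Agent.P017.R4.H538.lin2 a b c d e f g h i j k l m n

theorem stage2_all :
    (∃ X₀ : ℕ, ∀ X : ℕ, X₀ ≤ X → (15 / 100 : ℝ) * ({n : ℕ | n ≤ X ∧ IsFund n}.ncard : ℝ) ≤
      ({n : ℕ | n ≤ X ∧ IsFund n ∧ Fin15.{u} n}.ncard : ℝ)) ∧
    (∀ c : ℝ, c < eta → ∃ X₀ : ℕ, ∀ X : ℕ, X₀ ≤ X →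
      c * ({n : ℕ | n ≤ X ∧ IsFund n ∧ (OKc n ∨ OK2 n)}.ncard : ℝ) ≤
        ({n : ℕ | n ≤ X ∧ IsFund n ∧ (OKc n ∨ OK2 n) ∧ Fin15.{u} n}.ncard : ℝ)) ∧
    ∀ j : ℕ, (j = 1 ∨ j = 4 ∨ j = 8) → ∀ c : ℝ, c < eta → ∃ X₀ : ℕ, ∀ X : ℕ, X₀ ≤ X →
      c * ({n : ℕ | n ≤ X ∧ IsFund n ∧ n.gcd 8 = j ∧ (OKc n ∨ OK2 n)}.ncard : ℝ) ≤
        ({n : ℕ | n ≤ X ∧ IsFund n ∧ n.gcd 8 = j ∧ (OKc n ∨ OK2 n) ∧
          Fin15.{u} n}.ncard : ℝ) :=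
  stage2_of Vale.Agent.P017.R4.H472.Plug.stmtRM3 Vale.Agent.P017.R4.H472.Plug.stmtRM5
    Vale.Agent.P017.R4.H597.stmtE1 stmtE2 Vale.Agent.P017.R4.H597.stmtE3 stmtE4
    Vale.Agent.P017.R4.H224.stmtS3s Vale.Agent.P017.R4.H224.stmtS2s

end Vale.Agent.P017.R4.H985
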