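import Vale.Agent.P017.R4.H985.All2

/-!
# P017: discriminants with one odd prime factor
-/

open Finset NumberField

namespace Vale.Agent.P017.R4.H985

open Vale.Agent.P017.R3
open Vale.Agent.P017.R2.H985 (bit PF Pat sym Mat)
open Vale.Agent.P017.H185

universe u

theorem ck_zero {V : Type} [Fintype V] {M : Matrix V V (ZMod 2)}
    (h : ∀ x : V → ZMod 2, M.mulVec x = 0 → x = 0) : ck M = 0 := by
  have hb : LinearMap.ker (Matrix.mulVecLin M) = ⊥ := by
    rw [LinearMap.ker_eq_bot']
    intro x hx
    exact h x hx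
  unfold ck
  rw [hb, finrank_bot]

instance pf1 : IsEmpty (PF 1) := ⟨fun q => by
  have := q.2
  simp at this⟩

theorem sum1 (f : Option (PF 1) → ZMod 2) : ∑ a, f a = f none := by
  rw [Fintype.sum_option, Fintype.sum_empty, add_zero]

theorem sum2 (f : Option (Option (PF 1)) → ZMod 2) : ∑ a, f a = f none + f (some none) := by
  rw [Fintype.sum_option, sum1]

theorem bit2_one {p : ℕ} (hp : p.Prime) (h8 : p % 8 = 3 ∨ p % 8 = 5) : bit 2 p = 1 := by
  have hp2 : p ≠ 2 := by rintro rfl; omega
  have := Fact.mk hp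
  have hodd : Odd p := hp.odd_of_ne_two hp2
  unfold bit
  rw [if_pos]
  rw [jacobiSym.at_two hodd]
  have h : ((p : ℕ) : ZMod 8) = ((p % 8 : ℕ) : ZMod 8) := by
    rw [ZMod.natCast_mod]
  rw [h]
  rcases h8 with h8 | h8 <;> rw [h8] <;> decide

theorem bit2_zero {p : ℕ} (hp : p.Prime) (h8 : p % 8 = 1 ∨ p % 8 = 7) : bit 2 p = 0 := by
  have hp2 : p ≠ 2 := by rintro rfl; omega
  have hodd : Odd p := hp.odd_of_ne_two hp2
  unfold bit
  rw [if_neg]
  rw [jacobiSym.at_two hodd]
  have h : ((p : ℕ) : ZMod 8) = ((p % 8 : ℕ) : ZMod 8) := by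
    rw [ZMod.natCast_mod]
  rw [h]
  rcases h8 with h8 | h8 <;> rw [h8] <;> decide

theorem not_sq {p : ℕ} (hp : p.Prime) (h8 : p % 8 = 3 ∨ p % 8 = 5) :
    ¬ IsSquare ((2 : ℕ) : ZMod p) := by
  have := Fact.mk hp
  have hp2 : p ≠ 2 := by rintro rfl; omega
  intro h
  have h2 : IsSquare (2 : ZMod p) := by simpa using h
  rw [ZMod.exists_sq_eq_two_iff hp2] at h2
  omega

/-- prime discriminants -/
theorem prime_odd {p : ℕ} (hp : p.Prime) (h4 : p % 4 = 3) (hL : OKc p ∨ OK2 p) :
    Fin15.{u} p := by
  have hsq : Squarefree p := hp.prime.squarefree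
  rcases hL with h | h
  · have hR : Redei p := fun a ha _ => (Nat.dvd_prime hp).mp ha
    simpa using fin0 hsq h4 (Or.inl ⟨h, hR⟩)
  · have h5 : 5 < p := by
      unfold OK2 at h
      by_contra hc
      push Not at hc
      interval_cases p <;> omega
    have hD := Vale.Agent.P017.R3.H816.stmtD1 1 squarefree_one odd_one (by norm_num) (by norm_num)
      p hp h5 (by intro h; exact hp.one_lt.ne' (Nat.dvd_one.mp h)) (by simpa using h)
      (by simpa using h4) (ck_zero fun x hx => by
        funext a
        rcases a with _ | a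
        · have h := congrFun hx none
          rw [Matrix.mulVec, dotProduct, sum1] at h
          have h' : (1 : ZMod 2) * x none = 0 := h
          rwa [one_mul] at h'
        · exact isEmptyElim a)
    simpa using fin0 hsq h4 (Or.inr ⟨h, fun _ => by simpa using hD⟩)

theorem ne_one_dvd {p : ℕ} (hp : p.Prime) : ¬ p ∣ 1 := fun h => hp.one_lt.ne' (Nat.dvd_one.mp h)

/-- discriminants `-4p`, `p = 5` modulo 8 -/
theorem prime_four {p : ℕ} (hp : p.Prime) (h8 : p % 8 = 5) (hL : OKc (4 * p) ∨ OK2 (4 * p)) :
    Fin15.{u} (4 * p) := by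
  have hsq : Squarefree p := hp.prime.squarefree
  have h4 : p % 4 = 1 := by omega
  have hb := bit2_one hp (Or.inr h8)
  rcases hL with h | h
  · have h' : OKc p := (okc4 p).mpr h
    have hR : Redei2 p := by
      intro a x ha hx hc
      have hns := not_sq hp (Or.inr h8)
      have hcp := hc p hp dvd_rfl
      rcases (Nat.dvd_prime hp).mp ha with rfl | rfl
      · rcases hx with rfl | rfl
        · exact ⟨rfl, Or.inl rfl⟩
        · exact absurd (by simpa using hcp.1 (ne_one_dvd hp)) hns
      · rcases hx with rfl | rfl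
        · exact ⟨rfl, Or.inr rfl⟩
        · have h2 := hcp.2 dvd_rfl
          rw [Nat.div_self hp.pos] at h2
          exact absurd (by simpa using h2) hns
    exact fun K _ _ _ θ hθ => Vale.Agent.P017.R4.H222.stmtFin2 p hsq h4 h' hR K θ hθ
  · have h' : OK2 p := (ok24 p).mpr h
    have h5 : 5 < p := by
      unfold OK2 at h'
      by_contra hc
      push Not at hc
      interval_cases p <;> omega
    have hck : ck (MM2s 1 (sym 1 p) (bit 2 p)) = 0 := ck_zero fun x hx => by
      have e1 := congrFun hx (some none)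
      have e2 := congrFun hx none
      rw [Matrix.mulVec, dotProduct, sum2] at e1 e2
      have e1' : (0 : ZMod 2) * x none + (bit 2 p + ∑ q : PF 1, bit 2 q) * x (some none) = 0 := e1
      have e2' : (1 : ZMod 2) * x none + 1 * x (some none) = 0 := e2
      rw [Fintype.sum_empty, hb, zero_mul, zero_add, add_zero, one_mul] at e1'
      rw [e1', one_mul, mul_zero, add_zero] at e2'
      funext a
      rcases a with _ | _ | a
      · exact e2'
      · exact e1'
      · exact isEmptyElim a
    have c1 := Vale.Agent.P017.R4.H597.stmtE3 1 squarefree_one odd_one (by norm_num) (by norm_num)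
      p hp h5 (ne_one_dvd hp) (by simpa using h') (by simpa using h4) hck
    have c2 := stmtE4 1 squarefree_one odd_one (by norm_num) (by norm_num)
      p hp h5 (ne_one_dvd hp) (by simpa using h') (by simpa using h4) hck
    rw [one_mul] at c1 c2
    exact fin_cond hsq rfl c1 c2

/-- discriminants `-8p` -/
theorem prime_eight {p : ℕ} (hp : p.Prime)
    (hL : ((p % 8 = 3 ∨ p % 8 = 5) ∧ OKc (8 * p)) ∨ ((p % 8 = 1 ∨ p % 8 = 7) ∧ OK2 (8 * p))) :
    Fin15.{u} (8 * p) := by
  have hsq : Squarefree p := hp.prime.squarefree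
  have ho : Odd p := by
    rw [Nat.odd_iff]
    omega
  rcases hL with ⟨h8, h⟩ | ⟨h8, h⟩
  · have h' : OKc (2 * p) := (okc8 p).mpr h
    have hns := not_sq hp h8
    have hR : Redei (2 * p) := by
      intro a ha hc
      have hcp := hc p hp (dvd_mul_left p 2)
      have hcases : a = 1 ∨ a = 2 ∨ a = p ∨ a = 2 * p := by
        obtain ⟨b, c, hb, hc', rfl⟩ := (Nat.dvd_mul).mp ha
        rcases (Nat.dvd_prime Nat.prime_two).mp hb with rfl | rfl <;>
          rcases (Nat.dvd_prime hp).mp hc' with rfl | rfl <;> simp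
      rcases hcases with rfl | rfl | rfl | rfl
      · exact Or.inl rfl
      · exfalso
        apply hns
        apply hcp.1
        intro hd
        have := (Nat.prime_dvd_prime_iff_eq hp Nat.prime_two).mp hd
        omega
      · exfalso
        apply hns
        have h2 := hcp.2 dvd_rfl
        rwa [Nat.mul_div_cancel _ hp.pos] at h2
      · exact Or.inr rfl
    exact fun K _ _ _ θ hθ => Vale.Agent.P017.R4.H927.stmtFin3 p hsq ho h' hR K θ hθ
  · have h' : OK2 (2 * p) := (ok28 p).mpr h
    have hb := bit2_zero hp h8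
    have h5 : 5 < p := by
      unfold OK2 at h'
      by_contra hc
      push Not at hc
      interval_cases p <;> omega
    have hck : ∀ κ : ZMod 2, ck (MM3s κ 1 (sym 1 p) (bit 2 p)) = 0 := fun κ =>
      ck_zero fun x hx => by
        have e1 := congrFun hx (some none)
        have e2 := congrFun hx none
        rw [Matrix.mulVec, dotProduct, sum2] at e1 e2
        have e1' : (1 : ZMod 2) * x none + (bit 2 p + ∑ q : PF 1, bit 2 q) * x (some none) = 0 := e1
        have e2' : (1 : ZMod 2) * x none + 1 * x (some none) = 0 := e2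
        rw [Fintype.sum_empty, hb, zero_add, zero_mul, add_zero, one_mul] at e1'
        rw [e1', mul_zero, zero_add, one_mul] at e2'
        funext a
        rcases a with _ | _ | a
        · exact e1'
        · exact e2'
        · exact isEmptyElim a
    obtain ⟨κ, hκ⟩ : ∃ κ : ZMod 2, ((1 * p) % 4 = 1 ↔ κ = 1) := by
      by_cases h : (1 * p) % 4 = 1
      · exact ⟨1, iff_of_true h rfl⟩
      · exact ⟨0, iff_of_false h (by decide)⟩
    have c1 := Vale.Agent.P017.R4.H597.stmtE1 κ 1 squarefree_one odd_one (by norm_num)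
      (by norm_num) p hp h5 (ne_one_dvd hp) (by simpa using h') hκ (hck κ)
    have c2 := stmtE2 κ 1 squarefree_one odd_one (by norm_num)
      (by norm_num) p hp h5 (ne_one_dvd hp) (by simpa using h') hκ (hck κ)
    rw [one_mul] at c1 c2
    exact fin_cond (sq2 hsq ho) (by ring) c1 c2

end Vale.Agent.P017.R4.H985
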