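import Vale.Agent.P017.R4.H985.Prime

/-!
# P017: 3 inert, 5 split, discriminants with a given number of prime factors
-/

open Finset NumberField

namespace Vale.Agent.P017.R4.H985

open Vale.Agent.P017.R3
open Vale.Agent.P017.R2.H985 (bit PF Pat sym Mat)
open Vale.Agent.P017.H185

universe u

/-- primes `1` modulo 60, squares modulo each other, nonsquares modulo `p` -/
structure Chain (p n : ℕ) : Prop where
  sq : Squarefree n
  n60 : n % 60 = 1
  one : ∀ q ∈ n.primeFactors, q % 60 = 1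
  pair : ∀ q ∈ n.primeFactors, ∀ r ∈ n.primeFactors, q ≠ r → bit (r : ℤ) q = 0
  np : ∀ q ∈ n.primeFactors, bit (p : ℤ) q = 1
  cop : ¬ p ∣ n

theorem chain_one {p : ℕ} (hp : p.Prime) : Chain p 1 := by
  refine ⟨squarefree_one, by norm_num, ?_, ?_, ?_, ne_one_dvd hp⟩ <;> simp

theorem bit_one_of_mod {q r : ℕ} (hr : 1 < r) (h : q % r = 1) : bit (q : ℤ) r = 0 := by
  unfold bit
  rw [if_neg]
  rw [jacobiSym.mod_left]
  have : ((q : ℤ) % (r : ℤ)) = 1 := by exact_mod_cast h
  rw [this, jacobiSym.one_left]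
  norm_num

theorem step {p n : ℕ} (hp : p.Prime) (h4 : p % 4 = 3) (h60 : p.Coprime 60) (hc : Chain p n) :
    ∃ q : ℕ, q.Prime ∧ ¬ q ∣ n ∧ Chain p (n * q) := by
  have hn0 : n ≠ 0 := hc.sq.ne_zero
  have hco : Nat.Coprime (60 * n) p := by
    apply Nat.Coprime.mul_left
    · exact h60.symm
    · exact ((Nat.Prime.coprime_iff_not_dvd hp).mpr hc.cop).symm
  obtain ⟨a, ha1, ha2⟩ := Nat.chineseRemainder hco 1 (p - 1)
  have hp1 : Nat.Coprime (p - 1) p := by
    have := Nat.coprime_self_sub_left (m := 1) (n := p) hp.one_lt.le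
    rw [this]
    exact Nat.coprime_one_left p
  have hau : IsUnit ((a : ℕ) : ZMod (60 * n * p)) := by
    rw [ZMod.isUnit_iff_coprime]
    apply Nat.Coprime.mul_right
    · have h1 : a % (60 * n) = 1 % (60 * n) := ha1
      rw [Nat.coprime_iff_gcd_eq_one, Nat.gcd_comm, Nat.gcd_rec, h1, ← Nat.gcd_rec,
        Nat.gcd_one_right]
    · have h1 : a % p = (p - 1) % p := ha2
      rw [Nat.coprime_iff_gcd_eq_one, Nat.gcd_comm, Nat.gcd_rec, h1, ← Nat.gcd_rec, Nat.gcd_comm]
      exact hp1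
  have : NeZero (60 * n * p) := ⟨by
    have := hp.ne_zero
    positivity⟩
  obtain ⟨q, hqn, hq, hqa⟩ := Nat.forall_exists_prime_gt_and_eq_mod hau (60 * n * p)
  have hqm : q ≡ a [MOD 60 * n * p] := (ZMod.natCast_eq_natCast_iff _ _ _).mp hqa
  have hq1 : q ≡ 1 [MOD 60 * n] := (hqm.of_mul_right p).trans ha1
  have hqp : q ≡ p - 1 [MOD p] := (hqm.of_mul_left (60 * n)).trans ha2
  have hq60 : q % 60 = 1 := hq1.of_mul_right n
  have hnq : ¬ q ∣ n := by
    intro hd
    have := Nat.le_of_dvd (Nat.pos_of_ne_zero hn0) hd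
    nlinarith [hp.pos]
  have hqnep : q ≠ p := by
    rintro rfl
    have : 1 ≤ 60 * n := by omega
    nlinarith [hp.pos]
  have hodd : Odd p := Nat.odd_iff.mpr (by omega)
  have hqodd : Odd q := Nat.odd_iff.mpr (by omega)
  have hbp : bit (p : ℤ) q = 1 := by
    unfold bit
    rw [if_pos]
    rw [← jacobiSym.quadratic_reciprocity_one_mod_four (by omega) hodd]
    have h1 : ((q : ℤ)) % (p : ℤ) = (-1 : ℤ) % (p : ℤ) := by
      have h2 : (q : ℤ) ≡ ((p - 1 : ℕ) : ℤ) [ZMOD (p : ℤ)] := (Int.natCast_modEq_iff).mpr hqp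
      have h3 : ((p - 1 : ℕ) : ℤ) ≡ -1 [ZMOD (p : ℤ)] := by
        rw [Nat.cast_sub hp.one_lt.le, Nat.cast_one]
        exact (Int.modEq_iff_dvd).mpr ⟨-1, by ring⟩
      exact h2.trans h3
    rw [jacobiSym.mod_left' h1, jacobiSym.at_neg_one hodd, ZMod.χ₄_nat_three_mod_four h4]
  have hpair : ∀ r ∈ n.primeFactors, bit (q : ℤ) r = 0 ∧ bit (r : ℤ) q = 0 := by
    intro r hr
    have hrp := Nat.prime_of_mem_primeFactors hr
    have hrn := Nat.dvd_of_mem_primeFactors hr
    have h1 : q % r = 1 := by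
      have h2 : q ≡ 1 [MOD r] := hq1.of_dvd (hrn.trans (dvd_mul_left n 60))
      have h3 : q % r = 1 % r := h2
      rw [h3, Nat.mod_eq_of_lt hrp.one_lt]
    have h2 := bit_one_of_mod hrp.one_lt h1
    refine ⟨h2, ?_⟩
    have hr60 := hc.one r hr
    unfold bit at h2 ⊢
    rw [← jacobiSym.quadratic_reciprocity_one_mod_four (by omega)
      (Nat.odd_iff.mpr (by omega))]
    exact h2
  have hpf : (n * q).primeFactors = insert q n.primeFactors := by
    rw [Nat.primeFactors_mul hn0 hq.ne_zero, hq.primeFactors, Finset.union_comm]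
    rfl
  refine ⟨q, hq, hnq, ?_, ?_, ?_, ?_, ?_, ?_⟩
  · rw [Nat.squarefree_mul ((Nat.Prime.coprime_iff_not_dvd hq).mpr hnq).symm]
    exact ⟨hc.sq, hq.prime.squarefree⟩
  · rw [Nat.mul_mod, hc.n60, hq60]
  · intro r hr
    rw [hpf, Finset.mem_insert] at hr
    rcases hr with rfl | hr
    · exact hq60
    · exact hc.one r hr
  · intro r hr s hs hrs
    rw [hpf, Finset.mem_insert] at hr hs
    rcases hr with rfl | hr <;> rcases hs with rfl | hs
    · exact absurd rfl hrs
    · exact (hpair s hs).2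
    · exact (hpair r hr).1
    · exact hc.pair r hr s hs hrs
  · intro r hr
    rw [hpf, Finset.mem_insert] at hr
    rcases hr with rfl | hr
    · exact hbp
    · exact hc.np r hr
  · intro hd
    rcases (hp.dvd_mul).mp hd with h | h
    · exact hc.cop h
    · exact hqnep ((Nat.prime_dvd_prime_iff_eq hp hq).mp h).symm

theorem chain_exists {p : ℕ} (hp : p.Prime) (h4 : p % 4 = 3) (h60 : p.Coprime 60) (k : ℕ) :
    ∃ n : ℕ, Chain p n ∧ n.primeFactors.card = k := by
  induction k with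
  | zero => exact ⟨1, chain_one hp, by simp⟩
  | succ k ih =>
    obtain ⟨n, hc, hk⟩ := ih
    obtain ⟨q, hq, hqn, hc'⟩ := step hp h4 h60 hc
    refine ⟨n * q, hc', ?_⟩
    rw [Nat.primeFactors_mul hc.sq.ne_zero hq.ne_zero, hq.primeFactors, Finset.union_comm,
      ← Finset.insert_eq, Finset.card_insert_of_notMem, hk]
    intro h
    exact hqn (Nat.dvd_of_mem_primeFactors h)

theorem chain_ck {p n : ℕ} (hc : Chain p n) :
    ck (R3.ext (Mat n (sym n p)) (fun q => bit ((q : ℕ) : ℤ) 5) (fun q => bit ((q : ℕ) : ℤ) 3) 1)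
      = 0 := by
  have h1 : R3.ext (Mat n (sym n p)) (fun q => bit ((q : ℕ) : ℤ) 5)
      (fun q => bit ((q : ℕ) : ℤ) 3) 1 = 1 := by
    funext a b
    rcases a with _ | q <;> rcases b with _ | r
    · show (1 : ZMod 2) = _
      rw [Matrix.one_apply_eq]
    · show bit ((r : ℕ) : ℤ) 3 = _
      rw [Matrix.one_apply_ne (by simp)]
      exact bit_one_of_mod (by norm_num) (by have := hc.one r r.2; omega)
    · show bit ((q : ℕ) : ℤ) 5 = _
      rw [Matrix.one_apply_ne (by simp)]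
      exact bit_one_of_mod (by norm_num) (by have := hc.one q q.2; omega)
    · show Mat n (sym n p) q r = _
      unfold Mat
      by_cases hqr : r = q
      · subst hqr
        rw [if_pos rfl, Matrix.one_apply_eq, Finset.sum_eq_zero, add_zero]
        · exact hc.np r r.2
        · intro s hs
          rw [Finset.mem_erase] at hs
          exact hc.pair r r.2 s s.2 (fun h => hs.1 (Subtype.ext h.symm))
      · rw [if_neg hqr, Matrix.one_apply_ne (fun h => hqr (Option.some.inj h).symm)]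
        exact hc.pair q q.2 r r.2 (fun h => hqr (Subtype.ext h.symm))
  rw [h1]
  exact ck_zero fun x hx => by rwa [Matrix.one_mulVec] at hx

/-- 3 inert, 5 split: any number of prime factors -/
theorem family {r : ℕ} (hr : r = 19 ∨ r = 31) (k : ℕ) :
    {d : ℕ | Squarefree d ∧ d % 60 = r ∧ d.primeFactors.card = k + 1 ∧ Fin15.{u} d}.Infinite := by
  apply Set.infinite_of_forall_exists_gt
  intro B
  have hu : IsUnit ((r : ℕ) : ZMod 60) := by
    rw [ZMod.isUnit_iff_coprime]
    rcases hr with rfl | rfl <;> decide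
  obtain ⟨p, hpB, hp, hpa⟩ := Nat.forall_exists_prime_gt_and_eq_mod hu (max B 5)
  have hp60 : p % 60 = r := by
    have h1 : p % 60 = r % 60 := (ZMod.natCast_eq_natCast_iff _ _ _).mp hpa
    rcases hr with rfl | rfl <;> exact h1
  have hpB' : B < p ∧ 5 < p := max_lt_iff.mp hpB
  have h4 : p % 4 = 3 := by rcases hr with rfl | rfl <;> omega
  have h60 : p.Coprime 60 := by
    rw [Nat.Prime.coprime_iff_not_dvd hp]
    intro hd
    have h2 : p ≤ 60 := Nat.le_of_dvd (by norm_num) hd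
    have h3 : p < 60 ∨ p = 60 := by omega
    rcases h3 with h3 | h3
    · rw [Nat.mod_eq_of_lt h3] at hp60
      rcases hr with rfl | rfl <;> subst hp60 <;> revert hd <;> decide
    · omega
  obtain ⟨n, hc, hk⟩ := chain_exists hp h4 h60 k
  have hn0 : n ≠ 0 := hc.sq.ne_zero
  have hnp : (n * p) % 60 = r := by
    rw [Nat.mul_mod, hc.n60, hp60]
    rcases hr with rfl | rfl <;> norm_num
  have hsq : Squarefree (n * p) := by
    rw [Nat.squarefree_mul ((Nat.Prime.coprime_iff_not_dvd hp).mpr hc.cop).symm]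
    exact ⟨hc.sq, hp.prime.squarefree⟩
  have hok : OK2 (n * p) := by
    unfold OK2
    rcases hr with rfl | rfl <;> omega
  have h4' : (n * p) % 4 = 3 := by rcases hr with rfl | rfl <;> omega
  have hn60 := hc.n60
  have hD := Vale.Agent.P017.R3.H816.stmtD1 n hc.sq (Nat.odd_iff.mpr (by omega))
    (fun h => by omega) (fun h => by omega) p hp hpB'.2 hc.cop hok h4' (chain_ck hc)
  refine ⟨n * p, ⟨hsq, hnp, ?_, ?_⟩, ?_⟩
  · rw [Nat.primeFactors_mul hn0 hp.ne_zero, hp.primeFactors, Finset.union_comm,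
      ← Finset.insert_eq, Finset.card_insert_of_notMem, hk]
    intro h
    exact hc.cop (Nat.dvd_of_mem_primeFactors h)
  · have := fin0 hsq h4' (Or.inr ⟨hok, fun _ => hD⟩)
    rwa [one_mul] at this
  · exact lt_of_lt_of_le hpB'.1 (Nat.le_mul_of_pos_left p (Nat.pos_of_ne_zero hn0))

/-! ### Residue classes -/

theorem loc_of {n : ℕ} (h : n % 15 = 1 ∨ n % 15 = 2 ∨ n % 15 = 4 ∨ n % 15 = 8) :
    OKc n ∨ OK2 n := by
  rcases h with h | h | h | h
  · exact Or.inr ⟨by omega, Or.inl (by omega)⟩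
  · exact Or.inl ⟨Or.inr (by omega), Or.inr (Or.inl (by omega))⟩
  · exact Or.inr ⟨by omega, Or.inr (by omega)⟩
  · exact Or.inl ⟨Or.inr (by omega), Or.inr (Or.inr (by omega))⟩

theorem cls_odd {p : ℕ} (hp : p.Prime)
    (h : p % 60 = 19 ∨ p % 60 = 23 ∨ p % 60 = 31 ∨ p % 60 = 47) : Fin15.{u} p := by
  rcases h with h | h | h | h
  · exact prime_odd hp (by omega) (loc_of (Or.inr (Or.inr (Or.inl (by omega)))))
  · exact prime_odd hp (by omega) (loc_of (Or.inr (Or.inr (Or.inr (by omega)))))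
  · exact prime_odd hp (by omega) (loc_of (Or.inl (by omega)))
  · exact prime_odd hp (by omega) (loc_of (Or.inr (Or.inl (by omega))))

theorem cls_three : Fin15.{u} 3 :=
  prime_odd Nat.prime_three (by norm_num) (Or.inl ⟨Or.inl dvd_rfl, Or.inr (Or.inr (by norm_num))⟩)

theorem cls_five : Fin15.{u} (4 * 5) :=
  prime_four Nat.prime_five (by norm_num) (Or.inl ⟨Or.inr (by norm_num), Or.inl (by norm_num)⟩)

theorem cls_four {p : ℕ} (hp : p.Prime)
    (h : p % 120 = 53 ∨ p % 120 = 61 ∨ p % 120 = 77 ∨ p % 120 = 109) : Fin15.{u} (4 * p) := by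
  rcases h with h | h | h | h
  · exact prime_four hp (by omega) (loc_of (Or.inr (Or.inl (by omega))))
  · exact prime_four hp (by omega) (loc_of (Or.inr (Or.inr (Or.inl (by omega)))))
  · exact prime_four hp (by omega) (loc_of (Or.inr (Or.inr (Or.inr (by omega)))))
  · exact prime_four hp (by omega) (loc_of (Or.inl (by omega)))

theorem cls_eight {p : ℕ} (hp : p.Prime)
    (h : p % 120 = 17 ∨ p % 120 = 19 ∨ p % 120 = 23 ∨ p % 120 = 47 ∨
      p % 120 = 61 ∨ p % 120 = 91 ∨ p % 120 = 109 ∨ p % 120 = 113) : Fin15.{u} (8 * p) := by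
  rcases h with h | h | h | h | h | h | h | h
  · exact prime_eight hp (Or.inr ⟨Or.inl (by omega), ⟨by omega, Or.inl (by omega)⟩⟩)
  · exact prime_eight hp (Or.inl ⟨Or.inl (by omega), ⟨Or.inr (by omega),
      Or.inr (Or.inl (by omega))⟩⟩)
  · exact prime_eight hp (Or.inr ⟨Or.inr (by omega), ⟨by omega, Or.inr (by omega)⟩⟩)
  · exact prime_eight hp (Or.inr ⟨Or.inr (by omega), ⟨by omega, Or.inl (by omega)⟩⟩)
  · exact prime_eight hp (Or.inl ⟨Or.inr (by omega), ⟨Or.inr (by omega),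
      Or.inr (Or.inr (by omega))⟩⟩)
  · exact prime_eight hp (Or.inl ⟨Or.inl (by omega), ⟨Or.inr (by omega),
      Or.inr (Or.inr (by omega))⟩⟩)
  · exact prime_eight hp (Or.inl ⟨Or.inr (by omega), ⟨Or.inr (by omega),
      Or.inr (Or.inl (by omega))⟩⟩)
  · exact prime_eight hp (Or.inr ⟨Or.inl (by omega), ⟨by omega, Or.inr (by omega)⟩⟩)

theorem of_four {n : ℕ} (h : Fin15.{u} (4 * n)) : Fin15.{u} n := by
  intro K _ _ _ θ hθ
  refine h K (2 * θ) ?_
  rw [mul_pow, hθ]
  push_cast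
  ring

theorem of_eight {n : ℕ} (h : Fin15.{u} (8 * n)) : Fin15.{u} (2 * n) := by
  apply of_four
  have e : 4 * (2 * n) = 8 * n := by ring
  rw [e]
  exact h

end Vale.Agent.P017.R4.H985
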